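import Vale.Agent.P337.Final

/-!
# P337: the existential theory of the reals is in the counting hierarchy
-/

namespace Vale.Agent.Results.P337.EtrInCH

/-- The existential theory of the reals is in the counting hierarchy. -/
theorem result : Vale.Agent.P337.CH Vale.Agent.P337.ETR := Vale.Agent.P337.etr_ch

end Vale.Agent.Results.P337.EtrInCH
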